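import Vale.Agent.P226.Reduce
import Vale.Agent.P226.Ehrhard
import Vale.Agent.P226.Geom
import Vale.Agent.P226.Case4
import Vale.Agent.P226.Case5
import Vale.Agent.P226.Case6

/-!
# P226: the Gaussian propeller inequality in every dimension, for any number of cells

The proof is by induction on the number of cells. A maximiser with `k = n + 1` vectors which beats
the bound for fewer cells is a critical configuration: its vectors are the first moments of its
arg-max cells and have negative pairwise inner products. Ehrhard's inequality bounds the gain of
each cell, and a small-ball test rules out all mass profiles left over by these bounds.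
-/

open MeasureTheory ProbabilityTheory

namespace Vale.Agent.Results.P226.Propeller

/-- The propeller inequality. -/
theorem result : ∀ (d k : ℕ) (A : Fin k → Set (EuclideanSpace ℝ (Fin d))),
    (∀ i, MeasurableSet (A i)) →
    Pairwise (fun i j => AEDisjoint (stdGaussian (EuclideanSpace ℝ (Fin d))) (A i) (A j)) →
    ∑ i, ‖∫ x in A i, x ∂(stdGaussian (EuclideanSpace ℝ (Fin d)))‖ ^ 2 ≤ 9 / (8 * Real.pi) := by
  open Vale.Agent.P226 in
  refine propeller_of_crit fun n hn C => ?_
  rcases (by omega : n = 3 ∨ n = 4 ∨ 5 ≤ n) with rfl | rfl | h
  · exact Crit.not_four ehrhard halfspace tricone cap3 C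
  · exact Crit.not_five ehrhard halfspace bathtub triangle cap4 C
  · exact Crit.not_six C ehrhard halfspace bathtub triangle h

end Vale.Agent.Results.P226.Propeller
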